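import Vale.Agent.P150.Fast.TransferStmt
import Vale.Agent.P150.Fast.Path

/-!
Exported statement of part E of module M6 (P150), from planted to quenched: finitely (exponentially)
many gauge-invariant events of the coupling and the side field that are exponentially rare in the
planted model are, with high probability over the disorder, exponentially rare under the Gibbs
measure.
-/

open MeasureTheory Real Finset Filter

namespace Vale.Agent.P150.Fast

variable {n : ℕ}

/-- A set of couplings and fields invariant under flips of spins. -/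
def GaugeInv (E : Set ((Fin n → Fin n → ℝ) × (Fin n → ℝ))) : Prop :=
  ∀ (x : Conf n) (K : Fin n → Fin n → ℝ) (h : Fin n → ℝ),
    (K, h) ∈ E ↔ ((fun i j => vec x i * K i j * vec x j), fun i => vec x i * h i) ∈ E

/-- Planted to quenched. -/
def QuenchStmt : Prop :=
  ∀ β : ℝ, 0 ≤ β → β < 1 → ∀ γ : ℝ, 0 < γ → ∃ γ' : ℝ, 0 < γ' ∧ ∀ δ : ℝ, 0 < δ →
    ∀ᶠ n : ℕ in atTop, ∀ (m : ℕ) (u : Fin m → ℝ) (E : Fin m → Set ((Fin n → Fin n → ℝ) × (Fin n → ℝ))),
      (m : ℝ) ≤ exp (γ / 4 * n) → (∀ k, 0 ≤ u k) → (∀ k, MeasurableSet (E k)) → (∀ k, GaugeInv (E k)) →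
      (∀ k, ((disX n).prod (gp (Fin n))).real {p | (plantK n β p.1, plantH (u k) p.2) ∈ E k}
        ≤ exp (-(γ * n))) →
      (disX n).real {d | ¬ ∀ k, ∑ x, mu n β (offd d) x
        * (gp (Fin n)).real {g | (kmat n β d, sideField (u k) x g) ∈ E k} ≤ exp (-(γ' * n))} ≤ δ

end Vale.Agent.P150.Fast
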