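import Mathlib
import Vale.Agent.P150.Fast.Goe
import Vale.Agent.P150.Fast.Dom.Shift
import Vale.Agent.P150.Fast.Quench.Stmt

/-!
Gauge flips of the disorder and the planted translation: the mass of a gauge-invariant event under
the Gibbs weights is that of the planted model (P150, module M6, part E).
-/

open MeasureTheory ProbabilityTheory Real Finset
open scoped ENNReal

namespace Vale.Agent.P150.Fast.Quench

variable {n : ℕ}

theorem mp_sign {ι : Type*} [Fintype ι] (s : ι → ℝ) (hs : ∀ i, s i ^ 2 = 1) :
    MeasurePreserving (fun g i => s i * g i) (gp ι) (gp ι) := by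
  refine measurePreserving_pi (fun _ : ι => gaussianReal 0 1) (fun _ : ι => gaussianReal 0 1)
    fun i => ⟨measurable_const_mul (s i), ?_⟩
  rw [gaussianReal_map_const_mul, mul_zero]
  congr 1
  ext
  simp [hs i]

theorem vec_sq (x : Conf n) (i : Fin n) : vec x i ^ 2 = 1 := by
  cases hb : x i <;> simp [vec, spin, hb]

/-- The signs of the disorder coordinates under a flip. -/
def disSign (x : Conf n) : Pair n ⊕ Fin n → ℝ :=
  Sum.elim (fun p => vec x p.1.1 * vec x p.1.2) fun _ => 1

/-- A flip of the disorder. -/
def flipDis (x : Conf n) (d : Dis n) : Dis n := fun j => disSign x j * d j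

theorem mp_flipDis (x : Conf n) : MeasurePreserving (flipDis x) (disX n) (disX n) :=
  mp_sign (disSign x) fun j => by rcases j with p | i <;> simp [disSign, mul_pow, vec_sq]

theorem kmat_flipDis (β : ℝ) (x : Conf n) (d : Dis n) (i j : Fin n) :
    kmat n β (flipDis x d) i j = vec x i * kmat n β d i j * vec x j := by
  rcases lt_trichotomy i j with h | h | h
  · simp only [kmat, flipDis, disSign, dif_pos h, Sum.elim_inl]; ring
  · subst h
    simp only [kmat, flipDis, disSign, lt_irrefl, dite_false, Sum.elim_inr]
    linear_combination -(β / √(n : ℝ) * (√2 * d (Sum.inr i))) * vec_sq x i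
  · simp only [kmat, flipDis, disSign, dif_neg h.not_gt, dif_pos h, Sum.elim_inl]; ring

/-- The translation that plants the all-ones configuration. -/
noncomputable def aShift (n : ℕ) (β : ℝ) : Dis n := fun j => β / (2 * √n) * coef (fun _ => 1) j

theorem kmat_add_shift (β : ℝ) (d : Dis n) : kmat n β (d + aShift n β) = plantK n β d := by
  funext i j
  have hn : (0 : ℝ) < n := by exact_mod_cast Fin.pos i
  have hs := sq_sqrt hn.le
  have h2 := mul_self_sqrt (zero_le_two (α := ℝ))
  have hne : √(n : ℝ) ≠ 0 := (sqrt_pos.2 hn).ne'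
  rcases lt_trichotomy i j with h | h | h
  · simp [kmat, plantK, aShift, coef, h, Matrix.vecMulVec_apply]
    field_simp
    linear_combination (-β ^ 2) * hs
  · subst h
    simp [kmat, plantK, aShift, coef, Matrix.vecMulVec_apply]
    field_simp
    linear_combination (β ^ 2 * (n : ℝ)) * h2 - 2 * β ^ 2 * hs
  · simp [kmat, plantK, aShift, coef, h, h.not_gt, Matrix.vecMulVec_apply]
    field_simp
    linear_combination (-β ^ 2) * hs

/-- The exponent of the translation. -/
theorem shift_exp (β : ℝ) (d : Dis n) : ∑ j, (aShift n β j * d j - aShift n β j ^ 2 / 2)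
    = Ent.qform (kmat n β d) (fun _ => 1) / 2 - β ^ 2 * n / 4 := by
  rw [qform_kmat_eq, qform_goe, sum_sub_distrib, ← sum_div]
  have e1 : ∑ j, aShift n β j * d j = β / √n * lin (coef fun _ : Fin n => (1 : ℝ)) d / 2 := by
    rw [lin, mul_sum, sum_div]
    exact sum_congr rfl fun j _ => by simp only [aShift]; ring
  have e2 : ∑ j, aShift n β j ^ 2 = β ^ 2 * n / 2 := by
    rcases Nat.eq_zero_or_pos n with hn | hn
    · subst hn; simp
    · have hne : (n : ℝ) ≠ 0 := by exact_mod_cast hn.ne'
      simp only [aShift, mul_pow, ← mul_sum, coef_norm, one_pow, sum_const, card_univ,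
        Fintype.card_fin, nsmul_eq_mul, mul_one, div_pow, sq_sqrt n.cast_nonneg]
      field_simp
  rw [e1, e2]
  ring

theorem measurable_kmat (β : ℝ) :
    Measurable (β := Fin n → Fin n → ℝ) fun d : Dis n => kmat n β d := by
  refine measurable_pi_lambda _ fun i => measurable_pi_lambda _ fun j => ?_
  change Measurable fun d : Dis n => kmat n β d i j
  simp only [kmat]
  refine Measurable.const_mul ?_ _
  split_ifs
  · exact measurable_pi_apply _
  · exact measurable_pi_apply _
  · exact (measurable_pi_apply _).const_mul _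

variable (E : Set ((Fin n → Fin n → ℝ) × (Fin n → ℝ)))

/-- The pairs of disorder and noise in an event. -/
def evSet (β u : ℝ) : Set (Dis n × (Fin n → ℝ)) :=
  {p | ((kmat n β p.1 : Fin n → Fin n → ℝ), plantH u p.2) ∈ E}

/-- The mass of the noises at a disorder, gauged to the all-ones configuration. -/
noncomputable def evF (β u : ℝ) (d : Dis n) : ℝ≥0∞ := gp (Fin n) (Prod.mk d ⁻¹' evSet E β u)

variable {E}

theorem measurableSet_evSet (hE : MeasurableSet E) (β u : ℝ) : MeasurableSet (evSet E β u) :=
  (((measurable_kmat β).comp measurable_fst).prodMk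
    ((measurable_pi_lambda _ fun i => ((measurable_pi_apply i).const_mul _).const_add _ :
      Measurable fun g : Fin n → ℝ => plantH u g).comp measurable_snd)) hE

theorem measurable_evF (hE : MeasurableSet E) (β u : ℝ) : Measurable (evF E β u) :=
  measurable_measure_prodMk_left (measurableSet_evSet hE β u)

/-- Gauge invariance. -/
theorem evF_flip (hE : MeasurableSet E) (hG : GaugeInv E) (β u : ℝ) (x : Conf n) (d : Dis n) :
    evF E β u (flipDis x d) = gp (Fin n) {g | (kmat n β d, sideField u x g) ∈ E} := by
  rw [evF, ← (mp_sign (vec x) (vec_sq x)).measure_preimage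
    (measurable_prodMk_left (measurableSet_evSet hE β u)).nullMeasurableSet]
  congr 1
  ext g
  refine Iff.trans ?_ (hG x (kmat n β d) (sideField u x g)).symm
  have e1 : (kmat n β (flipDis x d) : Fin n → Fin n → ℝ)
      = fun i j => vec x i * kmat n β d i j * vec x j :=
    funext fun i => funext fun j => kmat_flipDis β x d i j
  have e2 : plantH u (fun i => vec x i * g i) = fun i => vec x i * sideField u x g i := by
    funext i
    simp only [plantH, sideField, Pi.add_apply, Pi.smul_apply, smul_eq_mul]
    linear_combination -u * vec_sq x i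
  change ((kmat n β (flipDis x d) : Fin n → Fin n → ℝ), plantH u fun i => vec x i * g i) ∈ E ↔ _
  rw [e1, e2]
  rfl

/-- The annealed mass of an event is that of the planted model. -/
theorem lintegral_plant (hE : MeasurableSet E) (hG : GaugeInv E) (β u : ℝ) :
    ∫⁻ d, ∑ x : Conf n, ENNReal.ofReal (exp (Ent.qform (kmat n β d) (vec x) / 2))
        * gp (Fin n) {g | (kmat n β d, sideField u x g) ∈ E} ∂disX n
      = ENNReal.ofReal ((2 : ℝ) ^ n * exp (β ^ 2 * n / 4))
        * ((disX n).prod (gp (Fin n))) {p | (plantK n β p.1, plantH u p.2) ∈ E} := by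
  set f : Dis n → ℝ≥0∞ := fun d =>
    ENNReal.ofReal (exp (Ent.qform (kmat n β d) (fun _ => 1) / 2)) * evF E β u d with hf
  have hq : Measurable fun d : Dis n => Ent.qform (kmat n β d) fun _ => 1 := by
    simp only [Ent.qform]
    exact Finset.measurable_fun_sum _ fun i _ => Finset.measurable_fun_sum _ fun j _ =>
      ((((measurable_pi_apply j).comp ((measurable_pi_apply i).comp (measurable_kmat β))) :
        Measurable fun d : Dis n => kmat n β d i j).const_mul _).mul_const _
  have hfm : Measurable f :=
    (ENNReal.measurable_ofReal.comp ((hq.div_const 2).exp)).mul (measurable_evF hE β u)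
  have e : ∀ x (d : Dis n), ENNReal.ofReal (exp (Ent.qform (kmat n β d) (vec x) / 2))
      * gp (Fin n) {g | (kmat n β d, sideField u x g) ∈ E} = f (flipDis x d) := fun x d => by
    have hx : Ent.qform (kmat n β (flipDis x d)) (fun _ => 1) = Ent.qform (kmat n β d) (vec x) := by
      simp only [Ent.qform, kmat_flipDis]
      exact sum_congr rfl fun i _ => sum_congr rfl fun j _ => by ring
    simp only [hf, hx, evF_flip hE hG]
  simp only [e]
  rw [lintegral_finsetSum (s := univ) (f := fun x d => f (flipDis x d))
    fun x _ => hfm.comp (mp_flipDis x).measurable]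
  simp only [(mp_flipDis _).lintegral_comp hfm, sum_const, card_univ, Fintype.card_fun,
    Fintype.card_bool, Fintype.card_fin, nsmul_eq_mul]
  have h1 : ∫⁻ d, evF E β u (d + aShift n β) ∂disX n
      = ((disX n).prod (gp (Fin n))) {p | (plantK n β p.1, plantH u p.2) ∈ E} := by
    have hs : {p : Dis n × (Fin n → ℝ) | (plantK n β p.1, plantH u p.2) ∈ E}
        = (fun p : Dis n × (Fin n → ℝ) => (p.1 + aShift n β, p.2)) ⁻¹' evSet E β u := by
      ext p
      simp only [evSet, Set.mem_preimage, Set.mem_ofPred_eq, kmat_add_shift]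
    rw [hs, Measure.prod_apply (((measurable_fst.add_const _).prodMk measurable_snd)
      (measurableSet_evSet hE β u))]
    rfl
  have h2 : ∫⁻ d, evF E β u (d + aShift n β) ∂disX n
      = ENNReal.ofReal (exp (-(β ^ 2 * n / 4))) * ∫⁻ d, f d ∂disX n := by
    rw [disX, Dom.lintegral_shift (aShift n β) (measurable_evF hE β u), ← disX,
      ← lintegral_const_mul _ hfm]
    refine lintegral_congr fun d => ?_
    rw [shift_exp, hf, ← mul_assoc, ← ENNReal.ofReal_mul (exp_pos _).le, ← exp_add]
    congr 3
    ring
  rw [← h1, h2, ← mul_assoc, ← ENNReal.ofReal_mul (by positivity), mul_assoc, ← exp_add,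
    add_neg_cancel, exp_zero, mul_one, ENNReal.ofReal_pow zero_le_two, ENNReal.ofReal_ofNat,
    Nat.cast_pow, Nat.cast_ofNat]

end Vale.Agent.P150.Fast.Quench
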