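import Mathlib
import Vale.Agent.P150.Fast.GoeZ
import Vale.Agent.P150.Fast.Quench.Flip

/-!
From planted to quenched: proof of `QuenchStmt` by Markov's inequality and the lower bound on the
partition function (P150, module M6, part E).
-/

open MeasureTheory ProbabilityTheory Real Finset Filter
open scoped ENNReal

namespace Vale.Agent.P150.Fast

namespace Quench

variable {n : ℕ}

/-- The part of the diagonal in the energy. -/
noncomputable def diagW (n : ℕ) (β : ℝ) : Pair n ⊕ Fin n → ℝ :=
  Sum.elim (fun _ => 0) fun _ => β / √n * √2 / 2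

theorem qform_half (β : ℝ) (d : Dis n) (x : Conf n) :
    Ent.qform (kmat n β d) (vec x) / 2 = energy n β (offd d) x + lin (diagW n β) d := by
  rw [qform_kmat_vec, lin, Fintype.sum_sum_type]
  simp only [diagW, Sum.elim_inl, Sum.elim_inr, mul_zero, sum_const_zero, zero_add, ← sum_mul]
  ring

/-- The diagonal rarely lowers the energy by much. -/
theorem diag_tail (β ε : ℝ) :
    (disX n).real {d | lin (diagW n β) d ≤ -(ε * n)} ≤ exp (β ^ 2 / 4 - ε * n) := by
  obtain ⟨hi, hm⟩ := mgf_lin (-diagW n β)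
  have h := mul_meas_ge_le_integral_of_nonneg (ae_of_all _ fun g => (exp_pos _).le) hi (exp (ε * n))
  have hs : ∑ j, (-diagW n β) j ^ 2 ≤ β ^ 2 / 2 := by
    rcases Nat.eq_zero_or_pos n with hn | hn
    · subst hn; simp; positivity
    · have hne : (n : ℝ) ≠ 0 := by exact_mod_cast hn.ne'
      rw [Fintype.sum_sum_type]
      simp only [diagW, Pi.neg_apply, Sum.elim_inl, Sum.elim_inr, neg_sq, ne_eq,
        OfNat.ofNat_ne_zero, not_false_eq_true, zero_pow, sum_const_zero, zero_add, sum_const,
        card_univ, Fintype.card_fin, nsmul_eq_mul, div_pow, mul_pow, sq_sqrt n.cast_nonneg,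
        sq_sqrt (zero_le_two (α := ℝ))]
      refine le_of_eq ?_
      field_simp
  rw [hm] at h
  have hset : {d : Dis n | lin (diagW n β) d ≤ -(ε * n)}
      = {d | exp (ε * n) ≤ exp (lin (-diagW n β) d)} := by
    ext d
    simp only [Set.mem_ofPred_eq, exp_le_exp, lin, Pi.neg_apply, mul_neg, sum_neg_distrib]
    constructor <;> intro <;> linarith
  rw [hset, disX, sub_eq_add_neg, exp_add, exp_neg, ← div_eq_mul_inv, le_div_iff₀ (exp_pos _),
    mul_comm]
  exact h.trans (exp_le_exp.2 (by linarith))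

/-- One event: outside the bad disorders its quenched mass is rarely large. -/
theorem one_event {β γ' ε γ u : ℝ} {E : Set ((Fin n → Fin n → ℝ) × (Fin n → ℝ))}
    (hE : MeasurableSet E) (hG : GaugeInv E)
    (hp : ((disX n).prod (gp (Fin n))).real {p | (plantK n β p.1, plantH u p.2) ∈ E}
      ≤ exp (-(γ * n))) :
    (disX n).real {d | exp (-(γ' * n)) < ∑ x, mu n β (offd d) x
        * (gp (Fin n)).real {g | (kmat n β d, sideField u x g) ∈ E} ∧
      annLogZ n β - ε * n < log (∑ x, exp (energy n β (offd d) x)) ∧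
      -(ε * n) < lin (diagW n β) d}
      ≤ exp (β ^ 2 / 4 - (γ - γ' - 2 * ε) * n) := by
  set thr := exp (annLogZ n β - ε * n + -(ε * n) + -(γ' * n))
  set Y : Dis n → ℝ≥0∞ := fun d => ∑ x, ENNReal.ofReal (exp (Ent.qform (kmat n β d) (vec x) / 2))
    * gp (Fin n) {g | (kmat n β d, sideField u x g) ∈ E} with hY
  set bad := {d : Dis n | exp (-(γ' * n)) < ∑ x, mu n β (offd d) x
        * (gp (Fin n)).real {g | (kmat n β d, sideField u x g) ∈ E} ∧
      annLogZ n β - ε * n < log (∑ x, exp (energy n β (offd d) x)) ∧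
      -(ε * n) < lin (diagW n β) d}
  have hsub : ∀ d ∈ bad, ENNReal.ofReal thr ≤ Y d := by
    rintro d ⟨hW, hZ, hD⟩
    obtain ⟨Z, hZe⟩ : ∃ Z, Z = ∑ x, exp (energy n β (offd d) x) := ⟨_, rfl⟩
    rw [← hZe] at hZ
    have hZ0 : 0 < Z := hZe ▸ sum_pos (fun _ _ => exp_pos _) univ_nonempty
    have h1 : thr ≤ Z * exp (lin (diagW n β) d) * ∑ x, mu n β (offd d) x
        * (gp (Fin n)).real {g | (kmat n β d, sideField u x g) ∈ E} := by
      rw [show thr = exp (annLogZ n β - ε * n) * exp (-(ε * n)) * exp (-(γ' * n)) by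
        rw [← exp_add, ← exp_add]]
      refine mul_le_mul (mul_le_mul ?_ (exp_le_exp.2 hD.le) (exp_pos _).le hZ0.le) hW.le
        (exp_pos _).le (by positivity)
      rw [← exp_log hZ0]
      exact exp_le_exp.2 hZ.le
    refine (ENNReal.ofReal_le_ofReal h1).trans (le_of_eq ?_)
    rw [mul_sum, ENNReal.ofReal_sum_of_nonneg fun x _ =>
      mul_nonneg (by positivity) (mul_nonneg (by rw [mu]; positivity) measureReal_nonneg)]
    refine sum_congr rfl fun x _ => ?_
    rw [qform_half, exp_add, ← mul_assoc, ENNReal.ofReal_mul (by rw [mu]; positivity),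
      measureReal_def, ENNReal.ofReal_toReal (measure_ne_top _ _)]
    congr 2
    rw [mu, ← hZe]
    field_simp
  have hm := mul_meas_ge_le_lintegral₀ (μ := disX n) (f := Y) ?_ (ENNReal.ofReal thr)
  · rw [hY, lintegral_plant hE hG] at hm
    have h2 := (mul_le_mul' le_rfl (measure_mono (μ := disX n) hsub)).trans hm
    have h3 := ENNReal.toReal_mono (ENNReal.mul_ne_top ENNReal.ofReal_ne_top (measure_ne_top _ _)) h2
    simp only [ENNReal.toReal_mul, ENNReal.toReal_ofReal (show 0 ≤ thr from (exp_pos _).le),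
      ENNReal.toReal_ofReal (by positivity : (0 : ℝ) ≤ 2 ^ n * exp (β ^ 2 * n / 4))] at h3
    change thr * (disX n).real bad ≤ _ at h3
    have h4 := h3.trans (mul_le_mul_of_nonneg_left hp (by positivity))
    rw [mul_comm, ← le_div_iff₀ (exp_pos _)] at h4
    refine h4.trans (le_of_eq ?_)
    have h2n : (2 : ℝ) ^ n = exp (n * log 2) := by
      rw [exp_nat_mul, exp_log two_pos]
    simp only [thr, annLogZ, h2n, ← exp_add, ← exp_sub]
    congr 1
    ring
  · refine (Finset.measurable_fun_sum _ fun x _ => ?_).aemeasurable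
    refine (ENNReal.measurable_ofReal.comp ?_).mul ?_
    · simp only [qform_half, energy, offd, lin]
      fun_prop
    · have h := (measurable_evF hE β u).comp (mp_flipDis x).measurable
      have e : evF E β u ∘ flipDis x
          = fun d => gp (Fin n) {g | (kmat n β d, sideField u x g) ∈ E} :=
        funext fun d => evF_flip hE hG β u x d
      rwa [e] at h

end Quench

open Quench in
/-- Planted to quenched. -/
theorem quenchThm : QuenchStmt := by
  intro β hβ0 hβ1 γ hγ
  refine ⟨γ / 4, by positivity, fun δ hδ => ?_⟩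
  set ε := γ / 8
  have hε : 0 < ε := by positivity
  have ht : Tendsto (fun n : ℕ => exp (1 / 4 - γ / 8 * n)) atTop (nhds 0) := by
    refine tendsto_exp_atBot.comp ?_
    simp only [sub_eq_add_neg, ← neg_mul]
    exact tendsto_atBot_add_const_left _ _
      ((tendsto_natCast_atTop_atTop).const_mul_atTop_of_neg (by linarith))
  filter_upwards [zLower β hβ0 hβ1 ε (δ / 3) hε (by positivity),
    ht.eventually (ge_mem_nhds (show (0 : ℝ) < δ / 3 by positivity))] with n hZ hn
  intro m u E hm _ hEm hEg hp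
  set bz := {d : Dis n | log (∑ x, exp (energy n β (offd d) x)) ≤ annLogZ n β - ε * n}
  set bd := {d : Dis n | lin (diagW n β) d ≤ -(ε * n)}
  set bk : Fin m → Set (Dis n) := fun k => {d | exp (-(γ / 4 * n)) < ∑ x, mu n β (offd d) x
      * (gp (Fin n)).real {g | (kmat n β d, sideField (u k) x g) ∈ E k} ∧
    annLogZ n β - ε * n < log (∑ x, exp (energy n β (offd d) x)) ∧
    -(ε * n) < lin (diagW n β) d}
  have hsub : {d : Dis n | ¬ ∀ k, ∑ x, mu n β (offd d) x
      * (gp (Fin n)).real {g | (kmat n β d, sideField (u k) x g) ∈ E k} ≤ exp (-(γ / 4 * n))}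
      ⊆ bz ∪ bd ∪ ⋃ k ∈ (univ : Finset (Fin m)), bk k := by
    intro d hd
    simp only [Set.mem_ofPred_eq, not_forall, not_le] at hd
    obtain ⟨k, hk⟩ := hd
    by_cases h1 : d ∈ bz
    · exact Or.inl (Or.inl h1)
    by_cases h2 : d ∈ bd
    · exact Or.inl (Or.inr h2)
    refine Or.inr (Set.mem_iUnion₂.2 ⟨k, mem_univ k, hk, ?_, ?_⟩)
    · simpa [bz] using h1
    · simpa [bd] using h2
  have e1 : (disX n).real bz ≤ δ / 3 := by
    have hmeas : MeasurableSet {g : Pair n → ℝ |
        log (∑ x, exp (energy n β g x)) ≤ annLogZ n β - ε * n} :=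
      measurableSet_le (by unfold energy; fun_prop) measurable_const
    exact ((mp_offd n).measureReal_preimage hmeas.nullMeasurableSet).trans_le hZ
  have hb : β ^ 2 / 4 ≤ 1 / 4 := by nlinarith
  have hn0 : (0 : ℝ) ≤ γ * n := by positivity
  have e2 : (disX n).real bd ≤ δ / 3 :=
    (diag_tail β ε).trans ((exp_le_exp.2 (by simp only [ε]; linarith)).trans hn)
  have e3 : (disX n).real (⋃ k ∈ (univ : Finset (Fin m)), bk k) ≤ δ / 3 := by
    refine (measureReal_biUnion_finset_le _ _).trans ((sum_le_sum fun k _ =>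
      one_event (hEm k) (hEg k) (hp k)).trans ?_)
    rw [sum_const, card_univ, Fintype.card_fin, nsmul_eq_mul]
    refine (mul_le_mul_of_nonneg_right hm (exp_pos _).le).trans (le_trans ?_ hn)
    rw [← exp_add]
    exact exp_le_exp.2 (by simp only [ε]; linarith)
  have := measureReal_mono (μ := disX n) hsub (measure_ne_top _ _)
  linarith [measureReal_union_le (μ := disX n) (bz ∪ bd) (⋃ k ∈ (univ : Finset (Fin m)), bk k),
    measureReal_union_le (μ := disX n) bz bd]

end Vale.Agent.P150.Fast
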